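import Vale.Agent.P229.Final

open scoped ContDiff

namespace Vale.Agent.Results.P229.NoLocalImm

/-- There is a smooth Riemannian metric on the plane such that no open neighbourhood of the origin
admits a smooth isometric immersion into Euclidean three-space. -/
theorem result : ∃ g : EuclideanSpace ℝ (Fin 2) → Matrix (Fin 2) (Fin 2) ℝ,
    (∀ i j, ContDiff ℝ ∞ fun x => g x i j) ∧ (∀ x, (g x).PosDef) ∧
    ∀ U : Set (EuclideanSpace ℝ (Fin 2)), IsOpen U → 0 ∈ U →
      ¬ ∃ F : EuclideanSpace ℝ (Fin 2) → EuclideanSpace ℝ (Fin 3), ContDiffOn ℝ ∞ F U ∧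
        ∀ x ∈ U, ∀ i j, inner ℝ (fderiv ℝ F x (EuclideanSpace.single i 1))
          (fderiv ℝ F x (EuclideanSpace.single j 1)) = g x i j :=
  Vale.Agent.P229.main

end Vale.Agent.Results.P229.NoLocalImm
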